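import Vale.Agent.P365.Bdl.B1

set_option linter.all false

/-!
# P365 flow layer: semigroup property of the Cauchy law and lowering of one absorption.
-/

namespace P365F

open MeasureTheory ProbabilityTheory Complex P365L
open scoped ENNReal NNReal Real

/-! ### one variable integrals -/

theorem sub_conj_ne {q : ℂ} (hq : 0 < q.im) (t : ℝ) : (t : ℂ) - (starRingEnd ℂ) q ≠ 0 := by
  intro h
  have := congrArg Complex.im h
  simp at this
  exact hq.ne' this

theorem integrable_cross {p q : ℂ} (hp : 0 < p.im) (hq : 0 < q.im) :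
    Integrable fun t : ℝ => (((t : ℂ) - p) * ((t : ℂ) - (starRingEnd ℂ) q))⁻¹ := by
  refine Integrable.mono' ((cau_integrable_sq hp).add (cau_integrable_sq hq)) ?_ ?_
  · exact (by fun_prop : Measurable fun t : ℝ =>
      (((t : ℂ) - p) * ((t : ℂ) - (starRingEnd ℂ) q))⁻¹).aestronglyMeasurable
  · refine Filter.Eventually.of_forall fun t => ?_
    rw [norm_inv, norm_mul, Pi.add_apply]
    have h0 : ‖(t : ℂ) - (starRingEnd ℂ) q‖ = ‖(t : ℂ) - q‖ := by
      rw [← Complex.norm_conj ((t : ℂ) - q), map_sub, Complex.conj_ofReal]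
    rw [h0, mul_inv, ← inv_pow, ← inv_pow]
    nlinarith only [sq_nonneg (‖(t : ℂ) - p‖⁻¹ - ‖(t : ℂ) - q‖⁻¹),
      sq_nonneg (‖(t : ℂ) - p‖⁻¹ + ‖(t : ℂ) - q‖⁻¹)]

/-- both poles in the lower half plane -/
theorem integral_mul_conj {p q : ℂ} (hp : 0 < p.im) (hq : 0 < q.im) :
    ∫ t : ℝ, (((t : ℂ) - (starRingEnd ℂ) q) * ((t : ℂ) - (starRingEnd ℂ) p))⁻¹ = 0 := by
  have h := cau_integral_mul hp hq
  have h1 : ∫ t : ℝ, (starRingEnd ℂ) ((((t : ℂ) - q) * ((t : ℂ) - p))⁻¹) = 0 := by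
    rw [integral_conj, h, map_zero]
  rw [← h1]
  refine integral_congr_ae (Filter.Eventually.of_forall fun t => ?_)
  simp only [map_inv₀, map_mul, map_sub, Complex.conj_ofReal]

theorem integral_cross {p q : ℂ} (hp : 0 < p.im) (hq : 0 < q.im) :
    ∫ t : ℝ, (((t : ℂ) - p) * ((t : ℂ) - (starRingEnd ℂ) q))⁻¹ =
      2 * π * I / (p - (starRingEnd ℂ) q) := by
  have hne : p - (starRingEnd ℂ) q ≠ 0 := by
    intro h
    have := congrArg Complex.im h
    simp at this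
    linarith
  have hpi : (0 : ℝ) < p.im := hp
  have e1 : ∀ t : ℝ, (((t : ℂ) - p) * ((t : ℂ) - (starRingEnd ℂ) q))⁻¹ =
      (p - (starRingEnd ℂ) q)⁻¹ * ((2 * p.im * I) * (((‖(t : ℂ) - p‖ ^ 2)⁻¹ : ℝ) : ℂ) +
        ((starRingEnd ℂ) p - (starRingEnd ℂ) q) *
          (((t : ℂ) - (starRingEnd ℂ) q) * ((t : ℂ) - (starRingEnd ℂ) p))⁻¹) := by
    intro t
    have h1 := cau_sub_ne hp t
    have h2 := sub_conj_ne hq t
    have h3 := sub_conj_ne hp t
    have h4 : (((‖(t : ℂ) - p‖ ^ 2 : ℝ)) : ℂ) = ((t : ℂ) - p) * ((t : ℂ) - (starRingEnd ℂ) p) := by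
      rw [Complex.ofReal_pow, ← Complex.mul_conj']
      simp
    have h5 : (2 * p.im * I : ℂ) = p - (starRingEnd ℂ) p := by
      rw [Complex.sub_conj]
      push_cast
      ring
    rw [Complex.ofReal_inv, h4, h5]
    field_simp
    ring
  simp only [e1]
  have i1 : Integrable fun t : ℝ => (2 * p.im * I) * (((‖(t : ℂ) - p‖ ^ 2)⁻¹ : ℝ) : ℂ) :=
    ((cau_integrable_sq hp).ofReal).const_mul _
  have i2 : Integrable fun t : ℝ => (((t : ℂ) - (starRingEnd ℂ) q) *
      ((t : ℂ) - (starRingEnd ℂ) p))⁻¹ := by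
    have h := (cau_integrable_mul hp hq)
    have h1 : (fun t : ℝ => (((t : ℂ) - (starRingEnd ℂ) q) *
      ((t : ℂ) - (starRingEnd ℂ) p))⁻¹) = fun t : ℝ => (starRingEnd ℂ)
        ((((t : ℂ) - q) * ((t : ℂ) - p))⁻¹) := by
      funext t
      simp only [map_inv₀, map_mul, map_sub, Complex.conj_ofReal]
    rw [h1]
    exact (Complex.conjCLE.toContinuousLinearMap).integrable_comp h
  rw [integral_const_mul, integral_add i1 (i2.const_mul _), integral_const_mul, integral_const_mul,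
    integral_mul_conj hp hq, mul_zero, add_zero, integral_complex_ofReal, cau_integral_sq hp]
  have : (p.im : ℂ) ≠ 0 := Complex.ofReal_ne_zero.2 hp.ne'
  push_cast
  field_simp

/-- product of two Poisson kernels -/
theorem integral_two_sq {p q : ℂ} (hp : 0 < p.im) (hq : 0 < q.im) :
    ∫ t : ℝ, (‖(t : ℂ) - p‖ ^ 2)⁻¹ * (‖(t : ℂ) - q‖ ^ 2)⁻¹ =
      π * (p.im + q.im) / (p.im * q.im * ‖p - (starRingEnd ℂ) q‖ ^ 2) := by
  have hne : p - (starRingEnd ℂ) q ≠ 0 := by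
    intro h
    have := congrArg Complex.im h
    simp at this
    linarith
  have e1 : ∀ t : ℝ, (((‖(t : ℂ) - p‖ ^ 2)⁻¹ * (‖(t : ℂ) - q‖ ^ 2)⁻¹ : ℝ) : ℂ) =
      (-(4 * p.im * q.im : ℝ) : ℂ)⁻¹ * ((((t : ℂ) - q) * ((t : ℂ) - p))⁻¹ -
        (((t : ℂ) - p) * ((t : ℂ) - (starRingEnd ℂ) q))⁻¹ -
        (((t : ℂ) - q) * ((t : ℂ) - (starRingEnd ℂ) p))⁻¹ +
        (((t : ℂ) - (starRingEnd ℂ) q) * ((t : ℂ) - (starRingEnd ℂ) p))⁻¹) := by
    intro t
    have h1 := cau_sub_ne hp t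
    have h2 := sub_conj_ne hq t
    have h3 := sub_conj_ne hp t
    have h0 := cau_sub_ne hq t
    have h4 : (((‖(t : ℂ) - p‖ ^ 2 : ℝ)) : ℂ) = ((t : ℂ) - p) * ((t : ℂ) - (starRingEnd ℂ) p) := by
      rw [Complex.ofReal_pow, ← Complex.mul_conj']
      simp
    have h4' : (((‖(t : ℂ) - q‖ ^ 2 : ℝ)) : ℂ) = ((t : ℂ) - q) * ((t : ℂ) - (starRingEnd ℂ) q) := by
      rw [Complex.ofReal_pow, ← Complex.mul_conj']
      simp
    have h5 : (p.im : ℂ) = (p - (starRingEnd ℂ) p) / (2 * I) := by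
      rw [Complex.sub_conj]
      have := Complex.I_ne_zero
      field_simp
      push_cast
      ring
    have h6 : (q.im : ℂ) = (q - (starRingEnd ℂ) q) / (2 * I) := by
      rw [Complex.sub_conj]
      have := Complex.I_ne_zero
      field_simp
      push_cast
      ring
    have h7 : p - (starRingEnd ℂ) p ≠ 0 := by
      intro h
      have := congrArg Complex.im h
      simp at this
      linarith
    have h8 : q - (starRingEnd ℂ) q ≠ 0 := by
      intro h
      have := congrArg Complex.im h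
      simp at this
      linarith
    have h9 : (-(4 * p.im * q.im : ℝ) : ℂ) =
        (p - (starRingEnd ℂ) p) * (q - (starRingEnd ℂ) q) := by
      push_cast
      rw [h5, h6]
      have h10 := Complex.I_ne_zero
      have h11 := Complex.I_sq
      field_simp
      rw [h11]
      ring
    rw [Complex.ofReal_mul, Complex.ofReal_inv, Complex.ofReal_inv, h4, h4', h9]
    field_simp
    ring
  have i0 := cau_integrable_mul hp hq
  have i1 := integrable_cross hp hq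
  have i2 := integrable_cross hq hp
  have i3 : Integrable fun t : ℝ => (((t : ℂ) - (starRingEnd ℂ) q) *
      ((t : ℂ) - (starRingEnd ℂ) p))⁻¹ := by
    have h1 : (fun t : ℝ => (((t : ℂ) - (starRingEnd ℂ) q) *
      ((t : ℂ) - (starRingEnd ℂ) p))⁻¹) = fun t : ℝ => (starRingEnd ℂ)
        ((((t : ℂ) - q) * ((t : ℂ) - p))⁻¹) := by
      funext t
      simp only [map_inv₀, map_mul, map_sub, Complex.conj_ofReal]
    rw [h1]
    exact (Complex.conjCLE.toContinuousLinearMap).integrable_comp i0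
  have i01 : Integrable fun t : ℝ => (((t : ℂ) - q) * ((t : ℂ) - p))⁻¹ -
      (((t : ℂ) - p) * ((t : ℂ) - (starRingEnd ℂ) q))⁻¹ := i0.sub i1
  have i012 : Integrable fun t : ℝ => (((t : ℂ) - q) * ((t : ℂ) - p))⁻¹ -
      (((t : ℂ) - p) * ((t : ℂ) - (starRingEnd ℂ) q))⁻¹ -
      (((t : ℂ) - q) * ((t : ℂ) - (starRingEnd ℂ) p))⁻¹ := i01.sub i2
  have key : ((∫ t : ℝ, (‖(t : ℂ) - p‖ ^ 2)⁻¹ * (‖(t : ℂ) - q‖ ^ 2)⁻¹ : ℝ) : ℂ) =
      ((π * (p.im + q.im) / (p.im * q.im * ‖p - (starRingEnd ℂ) q‖ ^ 2) : ℝ) : ℂ) := by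
    rw [← integral_complex_ofReal]
    simp only [e1]
    rw [integral_const_mul, integral_add i012 i3, integral_sub i01 i2,
      integral_sub i0 i1, cau_integral_mul hp hq, integral_mul_conj hp hq, integral_cross hp hq,
      integral_cross hq hp]
    have h4 : ((‖p - (starRingEnd ℂ) q‖ : ℝ) : ℂ) ^ 2 =
        -((p - (starRingEnd ℂ) q) * (q - (starRingEnd ℂ) p)) := by
      rw [← Complex.mul_conj']
      simp only [map_sub, Complex.conj_conj]
      ring
    have hne3 : q - (starRingEnd ℂ) p ≠ 0 := by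
      intro h
      apply hne
      have h1 := congrArg (starRingEnd ℂ) h
      simp only [map_sub, Complex.conj_conj, map_zero] at h1
      rw [← neg_eq_zero, neg_sub, h1]
    have hp0 : (p.im : ℂ) ≠ 0 := Complex.ofReal_ne_zero.2 hp.ne'
    have hq0 : (q.im : ℂ) ≠ 0 := Complex.ofReal_ne_zero.2 hq.ne'
    have h5 : (p - (starRingEnd ℂ) q) + (q - (starRingEnd ℂ) p) =
        ((p.im : ℂ) + q.im) * (2 * I) := by
      have h6 : (p.im : ℂ) * (2 * I) = p - (starRingEnd ℂ) p := by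
        rw [Complex.sub_conj]
        push_cast
        ring
      have h7 : (q.im : ℂ) * (2 * I) = q - (starRingEnd ℂ) q := by
        rw [Complex.sub_conj]
        push_cast
        ring
      rw [add_mul, h6, h7]
      ring
    push_cast
    rw [h4]
    generalize (p - (starRingEnd ℂ) q) = X at *
    generalize (q - (starRingEnd ℂ) p) = Y at *
    generalize (p.im : ℂ) = a at *
    generalize (q.im : ℂ) = b at *
    have hI := Complex.I_sq
    field_simp
    linear_combination (2 * π * I) * h5 + (4 * π * (a + b)) * hI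
  exact_mod_cast key

/-! ### the semigroup property -/

theorem nu_lintegral {f : ℝ → ℝ≥0∞} (hf : Measurable f) :
    ∫⁻ t, f t ∂nu = ∫⁻ t, ENNReal.ofReal (π⁻¹ * (t ^ 2 + 1)⁻¹) * f t := by
  have h1 : nu = volume.withDensity (cauchyPDF 0 1) :=
    cauchyMeasure_of_scale_ne_zero 0 one_ne_zero
  rw [h1, lintegral_withDensity_eq_lintegral_mul _ (measurable_cauchyPDF 0 1) hf]
  refine lintegral_congr fun t => ?_
  simp only [Pi.mul_apply, cauchyPDF, cauchyPDFReal, NNReal.coe_one, mul_one, sub_zero, one_pow]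

theorem lintegral_scale {h : ℝ} (hh : 0 < h) {f : ℝ → ℝ≥0∞} (hf : Measurable f) :
    ∫⁻ t, f (h * t) ∂nu = ∫⁻ x, ENNReal.ofReal (π⁻¹ * h * (x ^ 2 + h ^ 2)⁻¹) * f x := by
  rw [nu_lintegral (f := fun t => f (h * t)) (hf.comp (measurable_const_mul h))]
  have h1 := Real.map_volume_mul_left (a := h) hh.ne'
  have h2 : ∫⁻ x, ENNReal.ofReal (π⁻¹ * ((h⁻¹ * x) ^ 2 + 1)⁻¹) * f x
      ∂(Measure.map (h * ·) volume) =
      ∫⁻ t, ENNReal.ofReal (π⁻¹ * ((h⁻¹ * (h * t)) ^ 2 + 1)⁻¹) * f (h * t) :=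
    lintegral_map (by fun_prop) (measurable_const_mul h)
  have h3 : ∀ t : ℝ, h⁻¹ * (h * t) = t := fun t => by field_simp
  simp only [h3] at h2
  rw [← h2, h1, lintegral_smul_measure, smul_eq_mul, ← lintegral_const_mul _ (by fun_prop)]
  refine lintegral_congr fun x => ?_
  rw [← mul_assoc, ← ENNReal.ofReal_mul (abs_nonneg _), abs_of_pos (inv_pos.2 hh)]
  congr 2
  field_simp

theorem conv_density {a h : ℝ} (ha : 0 < a) (hh : 0 < h) (y : ℝ) :
    ∫⁻ s, ENNReal.ofReal (π⁻¹ * (s ^ 2 + 1)⁻¹) *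
      ENNReal.ofReal (π⁻¹ * h * ((y - a * s) ^ 2 + h ^ 2)⁻¹) =
      ENNReal.ofReal (π⁻¹ * (a + h) * (y ^ 2 + (a + h) ^ 2)⁻¹) := by
  have hI : 0 < I.im := by simp
  obtain ⟨q, hqdef⟩ : ∃ q : ℂ, q = (⟨y / a, h / a⟩ : ℂ) := ⟨_, rfl⟩
  have hq : 0 < q.im := by rw [hqdef]; exact div_pos hh ha
  have hqre : q.re = y / a := by rw [hqdef]
  have hqim : q.im = h / a := by rw [hqdef]
  have e1 : ∀ s : ℝ, (s ^ 2 + 1)⁻¹ = (‖(s : ℂ) - I‖ ^ 2)⁻¹ := by
    intro s
    rw [cau_sq_norm]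
    simp
  have e2 : ∀ s : ℝ, ((y - a * s) ^ 2 + h ^ 2)⁻¹ = (a ^ 2)⁻¹ * (‖(s : ℂ) - q‖ ^ 2)⁻¹ := by
    intro s
    rw [cau_sq_norm, ← mul_inv, hqre, hqim]
    congr 1
    field_simp
    ring
  have hnn : ∀ s : ℝ, 0 ≤ π⁻¹ * (s ^ 2 + 1)⁻¹ := fun s => by positivity
  have e3 : ∀ s : ℝ, ENNReal.ofReal (π⁻¹ * (s ^ 2 + 1)⁻¹) *
      ENNReal.ofReal (π⁻¹ * h * ((y - a * s) ^ 2 + h ^ 2)⁻¹) =
      ENNReal.ofReal ((π⁻¹ * (π⁻¹ * h * (a ^ 2)⁻¹)) *
        ((‖(s : ℂ) - I‖ ^ 2)⁻¹ * (‖(s : ℂ) - q‖ ^ 2)⁻¹)) := by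
    intro s
    rw [← ENNReal.ofReal_mul (hnn s), e1, e2]
    congr 1
    ring
  simp only [e3]
  have hint : Integrable fun s : ℝ => (‖(s : ℂ) - I‖ ^ 2)⁻¹ * (‖(s : ℂ) - q‖ ^ 2)⁻¹ := by
    refine Integrable.mono' ((cau_integrable_sq hI).mul_const ((q.im ^ 2)⁻¹)) ?_ ?_
    · exact (by fun_prop : Measurable fun s : ℝ =>
        (‖(s : ℂ) - I‖ ^ 2)⁻¹ * (‖(s : ℂ) - q‖ ^ 2)⁻¹).aestronglyMeasurable
    · refine Filter.Eventually.of_forall fun s => ?_
      rw [Real.norm_of_nonneg (by positivity)]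
      refine mul_le_mul_of_nonneg_left ?_ (by positivity)
      refine inv_anti₀ (by positivity) ?_
      exact pow_le_pow_left₀ hq.le (cau_im_le hq s) 2
  rw [← ofReal_integral_eq_lintegral_ofReal (hint.const_mul _)
    (Filter.Eventually.of_forall fun s => by positivity), integral_const_mul,
    integral_two_sq hI hq]
  congr 1
  have h4 : ‖I - (starRingEnd ℂ) q‖ ^ 2 = (y / a) ^ 2 + (1 + h / a) ^ 2 := by
    rw [Complex.sq_norm, Complex.normSq_apply]
    simp only [sub_re, I_re, conj_re, zero_sub, sub_im, I_im, conj_im, hqre, hqim]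
    ring
  rw [h4, hqim, I_im]
  have hpi : (π : ℝ) ≠ 0 := Real.pi_ne_zero
  have h5 : y ^ 2 + (a + h) ^ 2 ≠ 0 := by positivity
  have h6 : (y / a) ^ 2 + (1 + h / a) ^ 2 = (y ^ 2 + (a + h) ^ 2) / a ^ 2 := by
    field_simp
  rw [h6]
  field_simp

theorem lintegral_conv {a h : ℝ} (ha : 0 < a) (hh : 0 < h) {f : ℝ → ℝ≥0∞} (hf : Measurable f) :
    ∫⁻ s, ∫⁻ t, f (a * s + h * t) ∂nu ∂nu = ∫⁻ s, f ((a + h) * s) ∂nu := by
  have e1 : ∀ s : ℝ, ∫⁻ t, f (a * s + h * t) ∂nu =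
      ∫⁻ y, ENNReal.ofReal (π⁻¹ * h * ((y - a * s) ^ 2 + h ^ 2)⁻¹) * f y := by
    intro s
    rw [lintegral_scale hh (f := fun x => f (a * s + x)) (hf.comp (measurable_const_add _))]
    have h1 := lintegral_add_left_eq_self (μ := (volume : Measure ℝ))
      (fun y => ENNReal.ofReal (π⁻¹ * h * ((y - a * s) ^ 2 + h ^ 2)⁻¹) * f y) (a * s)
    rw [← h1]
    refine lintegral_congr fun x => ?_
    rw [add_sub_cancel_left]
  simp only [e1]
  rw [nu_lintegral (by fun_prop), lintegral_scale (by positivity) hf]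
  have e2 : ∀ s : ℝ, ENNReal.ofReal (π⁻¹ * (s ^ 2 + 1)⁻¹) *
      ∫⁻ y, ENNReal.ofReal (π⁻¹ * h * ((y - a * s) ^ 2 + h ^ 2)⁻¹) * f y =
      ∫⁻ y, ENNReal.ofReal (π⁻¹ * (s ^ 2 + 1)⁻¹) *
        (ENNReal.ofReal (π⁻¹ * h * ((y - a * s) ^ 2 + h ^ 2)⁻¹) * f y) := fun s =>
    (lintegral_const_mul _ (by fun_prop)).symm
  simp only [e2]
  rw [lintegral_lintegral_swap (by fun_prop)]
  refine lintegral_congr fun y => ?_
  rw [← conv_density ha hh y, ← lintegral_mul_const _ (by fun_prop)]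
  refine lintegral_congr fun s => ?_
  exact (mul_assoc _ _ _).symm

/-- the convolution of two Cauchy laws, as an equality of measures; scale `0` allowed -/
theorem map_conv {a h : ℝ} (ha : 0 ≤ a) (hh : 0 ≤ h) :
    (nu.prod nu).map (fun p : ℝ × ℝ => a * p.1 + h * p.2) = nu.map (fun s => (a + h) * s) := by
  rcases ha.eq_or_lt with rfl | ha
  · have e : (fun p : ℝ × ℝ => 0 * p.1 + h * p.2) = (fun s => (0 + h) * s) ∘ Prod.snd := by
      funext p; simp
    rw [e, ← Measure.map_map (by fun_prop) measurable_snd]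
    congr 1
    exact measurePreserving_snd.map_eq
  rcases hh.eq_or_lt with rfl | hh
  · have e : (fun p : ℝ × ℝ => a * p.1 + 0 * p.2) = (fun s => (a + 0) * s) ∘ Prod.fst := by
      funext p; simp
    rw [e, ← Measure.map_map (by fun_prop) measurable_fst]
    congr 1
    exact measurePreserving_fst.map_eq
  ext S hS
  have hm : Measurable fun p : ℝ × ℝ => a * p.1 + h * p.2 := by fun_prop
  have hm' : Measurable fun s : ℝ => (a + h) * s := by fun_prop
  rw [← lintegral_indicator_one hS, lintegral_map (measurable_one.indicator hS) hm,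
    ← lintegral_indicator_one hS, lintegral_map (measurable_one.indicator hS) hm']
  rw [lintegral_prod (fun p : ℝ × ℝ => S.indicator (1 : ℝ → ℝ≥0∞) (a * p.1 + h * p.2))
    ((measurable_one.indicator hS).comp hm).aemeasurable]
  exact lintegral_conv ha hh (measurable_one.indicator hS)

theorem integral_conv {a h : ℝ} (ha : 0 ≤ a) (hh : 0 ≤ h) {f : ℝ → ℝ} (hf : Measurable f)
    {C : ℝ} (hC : ∀ x, |f x| ≤ C) :
    ∫ s, f ((a + h) * s) ∂nu = ∫ s, ∫ t, f (a * s + h * t) ∂nu ∂nu := by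
  have hm : Measurable fun p : ℝ × ℝ => a * p.1 + h * p.2 := by fun_prop
  have hm' : Measurable fun s : ℝ => (a + h) * s := by fun_prop
  have h1 : ∫ s, f ((a + h) * s) ∂nu = ∫ x, f x ∂(nu.map (fun s => (a + h) * s)) :=
    (integral_map hm'.aemeasurable hf.aestronglyMeasurable).symm
  rw [h1, ← map_conv ha hh, integral_map hm.aemeasurable hf.aestronglyMeasurable]
  refine integral_prod _ (Integrable.of_bound (C := C) (hf.comp hm).aestronglyMeasurable
    (Filter.Eventually.of_forall fun p => ?_))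
  rw [Real.norm_eq_abs]
  exact hC _

end P365F
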