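import Vale.Agent.P365.Flow.Semi
import Vale.Agent.P365.Minami.Poisson

set_option linter.all false

/-!
# P365 flow layer: lowering the absorption of one site = kicking the potential of that site.

`Wc U g e c x = U x + g x * c x - i e x`.  Lowering `e z` to `e z - h` (and raising the noise scale
`g z` to `g z + h`) is, in law, the same as adding `h (t + i)` to the potential at `z`, `t` an
independent standard Cauchy variable.
-/

namespace P365F

open MeasureTheory ProbabilityTheory Complex P365L P365L.Poi
open scoped ENNReal NNReal Real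

variable {ι : Type*} [Fintype ι] [DecidableEq ι]

theorem measurePreserving_conv {a h : ℝ} (ha : 0 ≤ a) (hh : 0 < h) :
    MeasurePreserving (fun p : ℝ × ℝ => (a * p.1 + h * p.2) / (a + h)) (nu.prod nu) nu := by
  refine ⟨by fun_prop, ?_⟩
  have hne : a + h ≠ 0 := by positivity
  have e : (fun p : ℝ × ℝ => (a * p.1 + h * p.2) / (a + h)) =
      (fun x => x / (a + h)) ∘ (fun p : ℝ × ℝ => a * p.1 + h * p.2) := rfl
  rw [e, ← Measure.map_map (by fun_prop) (by fun_prop), map_conv ha hh.le,
    Measure.map_map (by fun_prop) (by fun_prop)]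
  have e2 : (fun x => x / (a + h)) ∘ (fun s : ℝ => (a + h) * s) = id := by
    funext s
    simp only [Function.comp_apply, id]
    field_simp
  rw [e2, Measure.map_id]

/-- merging the kick with the noise of the site -/
noncomputable def merge (z : ι) (a h : ℝ) (p : (ι → ℝ) × ℝ) : ι → ℝ :=
  Function.update p.1 z ((a * p.1 z + h * p.2) / (a + h))

theorem measurable_merge (z : ι) (a h : ℝ) : Measurable (merge z a h) := by
  refine measurable_pi_lambda _ fun i => ?_
  unfold merge
  by_cases hi : i = z
  · subst hi
    simp only [Function.update_self]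
    fun_prop
  · simp only [Function.update_of_ne hi]
    fun_prop

theorem measurePreserving_merge (z : ι) {a h : ℝ} (ha : 0 ≤ a) (hh : 0 < h) :
    MeasurePreserving (merge z a h) ((mu ι).prod nu) (mu ι) := by
  refine ⟨measurable_merge z a h, ?_⟩
  have hR := (measurePreserving_resample (ι := ι) z).prod (MeasurePreserving.id nu)
  have h1 : (merge z a h) ∘ (Prod.map (fun p : (ι → ℝ) × ℝ => Function.update p.1 z p.2) id) =
      (fun p : (ι → ℝ) × ℝ => Function.update p.1 z p.2) ∘
        (Prod.map id (fun p : ℝ × ℝ => (a * p.1 + h * p.2) / (a + h))) ∘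
          (MeasurableEquiv.prodAssoc : ((ι → ℝ) × ℝ) × ℝ ≃ᵐ (ι → ℝ) × ℝ × ℝ) := by
    funext p
    simp [merge, MeasurableEquiv.prodAssoc]
  have h2 : MeasurePreserving ((fun p : (ι → ℝ) × ℝ => Function.update p.1 z p.2) ∘
        (Prod.map id (fun p : ℝ × ℝ => (a * p.1 + h * p.2) / (a + h))) ∘
          (MeasurableEquiv.prodAssoc : ((ι → ℝ) × ℝ) × ℝ ≃ᵐ (ι → ℝ) × ℝ × ℝ))
      (((mu ι).prod nu).prod nu) (mu ι) := by
    refine (measurePreserving_resample z).comp ?_
    refine MeasurePreserving.comp (μb := (mu ι).prod (nu.prod nu)) ?_ ?_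
    · exact (MeasurePreserving.id (mu ι)).prod (measurePreserving_conv ha hh)
    · exact measurePreserving_prodAssoc (mu ι) nu nu
  rw [← h1] at h2
  have h3 := h2.map_eq
  rw [← Measure.map_map (measurable_merge z a h) hR.measurable] at h3
  have h4 : Measure.map (Prod.map (fun p : (ι → ℝ) × ℝ => Function.update p.1 z p.2) id)
      (((mu ι).prod nu).prod nu) = (mu ι).prod nu := hR.map_eq
  rw [h4] at h3
  exact h3

/-- the kicked potential -/
noncomputable def kickW (z : ι) (h : ℝ) (W : ι → ℂ) (t : ℝ) : ι → ℂ :=
  Function.update W z (W z + h * ((t : ℂ) + I))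

omit [Fintype ι] in
theorem Wc_merge (U g e : ι → ℝ) (z : ι) {h : ℝ} (hg : 0 ≤ g z) (hh : 0 < h)
    (c : ι → ℝ) (t : ℝ) :
    Wc U (Function.update g z (g z + h)) (Function.update e z (e z - h))
      (merge z (g z) h (c, t)) = kickW z h (Wc U g e c) t := by
  have hne : (g z : ℂ) + h ≠ 0 := by
    have : g z + h ≠ 0 := by positivity
    exact_mod_cast this
  funext x
  unfold Wc merge kickW
  by_cases hx : x = z
  · subst hx
    simp only [Function.update_self]
    push_cast
    field_simp
    ring
  · simp only [Function.update_of_ne hx]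

/-- **lowering one absorption**: integrability -/
theorem integrable_lower_iff (U g e : ι → ℝ) (z : ι) {h : ℝ} (hg : 0 ≤ g z) (hh : 0 < h)
    {F : (ι → ℂ) → ℝ}
    (hF : Integrable (fun c => F (Wc U (Function.update g z (g z + h))
      (Function.update e z (e z - h)) c)) (mu ι)) :
    Integrable (fun p : (ι → ℝ) × ℝ => F (kickW z h (Wc U g e p.1) p.2)) ((mu ι).prod nu) := by
  have h1 := (measurePreserving_merge z hg hh).integrable_comp_of_integrable hF
  refine h1.congr (Filter.Eventually.of_forall fun p => ?_)
  obtain ⟨c, t⟩ := p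
  simp only [Function.comp_apply]
  rw [Wc_merge U g e z hg hh c t]

/-- **lowering one absorption**: the exact formula -/
theorem integral_lower (U g e : ι → ℝ) (z : ι) {h : ℝ} (hg : 0 ≤ g z) (hh : 0 < h)
    {F : (ι → ℂ) → ℝ}
    (hF : Integrable (fun c => F (Wc U (Function.update g z (g z + h))
      (Function.update e z (e z - h)) c)) (mu ι)) :
    ∫ c, F (Wc U (Function.update g z (g z + h)) (Function.update e z (e z - h)) c) ∂(mu ι) =
      ∫ c, ∫ t, F (kickW z h (Wc U g e c) t) ∂nu ∂(mu ι) := by
  have hMP := measurePreserving_merge z hg hh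
  rw [← integral_prod _ (integrable_lower_iff U g e z hg hh hF)]
  conv_lhs => rw [← hMP.map_eq]
  rw [integral_map hMP.measurable.aemeasurable (by rw [hMP.map_eq]; exact hF.aestronglyMeasurable)]
  refine integral_congr_ae (Filter.Eventually.of_forall fun p => ?_)
  obtain ⟨c, t⟩ := p
  simp only []
  rw [Wc_merge U g e z hg hh c t]

end P365F
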