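import Vale.Agent.P365.Flow.Kick
import Vale.Agent.P365.L1.Alg2

set_option linter.all false

/-!
# P365 flow layer: averages of the multiplier `θ = δ / (1 + δ g)`, `δ = h (t + i)`.
-/

namespace P365F

open MeasureTheory ProbabilityTheory Complex P365L P365L.Poi
open scoped ENNReal NNReal Real

theorem integrable_mul_sq {p q : ℂ} (hp : 0 < p.im) (hq : 0 < q.im) :
    Integrable fun t : ℝ => (((t : ℂ) - q) * ((t : ℂ) - p) ^ 2)⁻¹ := by
  refine Integrable.mono' ((cau_integrable_sq hp).mul_const (q.im)⁻¹) ?_ ?_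
  · exact (by fun_prop : Measurable fun t : ℝ =>
      (((t : ℂ) - q) * ((t : ℂ) - p) ^ 2)⁻¹).aestronglyMeasurable
  · refine Filter.Eventually.of_forall fun t => ?_
    rw [norm_inv, norm_mul, norm_pow, mul_inv, mul_comm]
    refine mul_le_mul_of_nonneg_left ?_ (by positivity)
    exact inv_anti₀ hq (cau_im_le hq t)

theorem integral_mul_sq {p q : ℂ} (hp : 0 < p.im) (hq : 0 < q.im) :
    ∫ t : ℝ, (((t : ℂ) - q) * ((t : ℂ) - p) ^ 2)⁻¹ = 0 := by
  by_cases hpq : q = p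
  · subst hpq
    have hid : ∀ t : ℝ, HasDerivAt (fun t : ℝ => (t : ℂ)) 1 t := fun t =>
      Complex.ofRealCLM.hasDerivAt
    have hder : ∀ t : ℝ, HasDerivAt (fun t : ℝ => (-1 / 2 : ℂ) * (((t : ℂ) - q)⁻¹) ^ 2)
        ((((t : ℂ) - q) * ((t : ℂ) - q) ^ 2)⁻¹) t := by
      intro t
      have h0 := cau_sub_ne hq t
      refine (((((hid t).sub_const q).inv h0).pow 2).const_mul (-1 / 2 : ℂ)).congr_deriv ?_
      push_cast
      simp only [Pi.inv_apply]
      field_simp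
    have h1 : ∀ l : Filter ℝ, Filter.Tendsto (fun t : ℝ => |t|) l Filter.atTop →
        Filter.Tendsto (fun t : ℝ => (-1 / 2 : ℂ) * (((t : ℂ) - q)⁻¹) ^ 2) l (nhds 0) := by
      intro l hl
      have h2 := ((cau_tendsto_inv q hl).pow 2).const_mul (-1 / 2 : ℂ)
      simpa using h2
    have := integral_of_hasDerivAt_of_tendsto hder (integrable_mul_sq hp hp)
      (h1 _ Filter.tendsto_abs_atBot_atTop) (h1 _ Filter.tendsto_abs_atTop_atTop)
    simpa using this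
  · have hne : q - p ≠ 0 := sub_ne_zero.2 hpq
    have e1 : ∀ t : ℝ, (((t : ℂ) - q) * ((t : ℂ) - p) ^ 2)⁻¹ =
        (q - p)⁻¹ * ((((t : ℂ) - q) * ((t : ℂ) - p))⁻¹ - (((t : ℂ) - p) * ((t : ℂ) - p))⁻¹) := by
      intro t
      have h1 := cau_sub_ne hp t
      have h2 := cau_sub_ne hq t
      field_simp
      ring
    simp only [e1]
    rw [integral_const_mul, integral_sub (cau_integrable_mul hp hq) (cau_integrable_mul hp hp),
      cau_integral_mul hp hq, cau_integral_mul hp hp]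
    simp

variable {h : ℝ} {g : ℂ}

theorem tz_eq (hh : 0 < h) (hg : h * ‖g‖ ^ 2 < g.im) (t : ℝ) :
    tz h g t = g⁻¹ * (((t : ℂ) + I) * ((t : ℂ) - cau_p h g)⁻¹) := by
  have hg0 := cau_ne_zero hh hg
  have hp := cau_p_pos hh hg
  have h2 : (h : ℂ) ≠ 0 := Complex.ofReal_ne_zero.2 hh.ne'
  have h3 := cau_sub_ne hp t
  unfold tz
  rw [cau_den hh hg0]
  field_simp

theorem integral_tz_sq (hh : 0 < h) (hg : h * ‖g‖ ^ 2 < g.im) :
    ∫ t, tz h g t ^ 2 ∂nu = 0 := by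
  have hg0 := cau_ne_zero hh hg
  have hp := cau_p_pos hh hg
  have hI : 0 < I.im := by simp
  rw [cau_integral]
  have h1 : ∀ t : ℝ, ((π⁻¹ * (t ^ 2 + 1)⁻¹ : ℝ) : ℂ) * tz h g t ^ 2 =
      (π * g ^ 2)⁻¹ * ((((t : ℂ) - I) * ((t : ℂ) - cau_p h g))⁻¹ +
        (cau_p h g + I) * (((t : ℂ) - I) * ((t : ℂ) - cau_p h g) ^ 2)⁻¹) := by
    intro t
    have h3 := cau_sub_ne hp t
    have h4 := cau_sub_ne hI t
    have h5 : (t : ℂ) + I ≠ 0 := by
      intro h
      have := congrArg Complex.im h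
      simp at this
    have h6 : ((t : ℂ) ^ 2 + 1) = ((t : ℂ) - I) * ((t : ℂ) + I) := by
      have := Complex.I_sq
      linear_combination this
    have h7 : (π : ℂ) ≠ 0 := Complex.ofReal_ne_zero.2 Real.pi_ne_zero
    rw [tz_eq hh hg]
    push_cast
    rw [h6]
    field_simp
    ring
  simp only [h1]
  rw [integral_const_mul, integral_add (cau_integrable_mul hp hI)
    ((integrable_mul_sq hp hI).const_mul _), integral_const_mul, cau_integral_mul hp hI,
    integral_mul_sq hp hI]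
  simp

theorem sub_pos_of (hg : h * ‖g‖ ^ 2 < g.im) : 0 < g.im - h * ‖g‖ ^ 2 := by linarith

theorem tz_norm_sq (hh : 0 < h) (hg : h * ‖g‖ ^ 2 < g.im) (t : ℝ) :
    ‖tz h g t‖ ^ 2 = (‖g‖ ^ 2)⁻¹ * ((t ^ 2 + 1) * (‖(t : ℂ) - cau_p h g‖ ^ 2)⁻¹) := by
  have h1 : ‖(t : ℂ) + I‖ ^ 2 = t ^ 2 + 1 := by
    rw [Complex.sq_norm, Complex.normSq_apply]
    simp
    ring
  rw [tz_eq hh hg, norm_mul, norm_mul, norm_inv, norm_inv, mul_pow, mul_pow, h1, inv_pow, inv_pow]

theorem integral_tz_norm_sq (hh : 0 < h) (hg : h * ‖g‖ ^ 2 < g.im) :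
    ∫ t, ‖tz h g t‖ ^ 2 ∂nu = h / (g.im - h * ‖g‖ ^ 2) := by
  have hg0 := cau_ne_zero hh hg
  have hgn : 0 < ‖g‖ := norm_pos_iff.2 hg0
  have hp := cau_p_pos hh hg
  have h1 : nu = volume.withDensity (cauchyPDF 0 1) :=
    cauchyMeasure_of_scale_ne_zero 0 one_ne_zero
  rw [h1, integral_withDensity_eq_integral_toReal_smul (measurable_cauchyPDF 0 1)
    (Filter.Eventually.of_forall fun x => ENNReal.ofReal_lt_top)]
  have e1 : ∀ t : ℝ, (cauchyPDF 0 1 t).toReal • ‖tz h g t‖ ^ 2 =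
      (π * ‖g‖ ^ 2)⁻¹ * (‖(t : ℂ) - cau_p h g‖ ^ 2)⁻¹ := by
    intro t
    rw [cauchyPDF, ENNReal.toReal_ofReal (cauchyPDF_pos 0 one_ne_zero t).le, cauchyPDFReal_def,
      tz_norm_sq hh hg]
    simp only [NNReal.coe_one, mul_one, sub_zero, one_pow, smul_eq_mul]
    have h3 : t ^ 2 + 1 ≠ 0 := by positivity
    have h4 := Real.pi_ne_zero
    field_simp
  simp only [e1]
  rw [integral_const_mul, cau_integral_sq hp, cau_p_im hh hg0]
  have h5 := sub_pos_of hg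
  have h6 : -1 + g.im / (h * ‖g‖ ^ 2) = (g.im - h * ‖g‖ ^ 2) / (h * ‖g‖ ^ 2) := by
    field_simp
    ring
  rw [h6]
  have h4 := Real.pi_ne_zero
  field_simp

theorem measurable_tz' : Measurable fun t => tz h g t := measurable_tz h g

theorem integrable_tz_norm_sq (hh : 0 < h) (hg : h * ‖g‖ ^ 2 < g.im) :
    Integrable (fun t => ‖tz h g t‖ ^ 2) nu := by
  obtain ⟨C, hC⟩ := bounded_tz hh hg
  refine Integrable.of_bound (C := C ^ 2) ((measurable_tz h g).norm.pow_const 2).aestronglyMeasurable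
    (Filter.Eventually.of_forall fun t => ?_)
  rw [Real.norm_of_nonneg (by positivity)]
  exact pow_le_pow_left₀ (norm_nonneg _) (hC t) 2

end P365F
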